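import Vale.Agent.P184.H428.Greedy

/-! P184, block LAB (helper428), part 2: probability that long increasing paths exist. -/

open Finset MeasureTheory

namespace Vale.Agent.P184.H428

variable {V : Type*} {X : Type*} [MeasurableSpace X]

theorem map_twist (μ : Measure X) [IsProbabilityMeasure μ] (σ : V ≃ V) (f : V → X → X)
    (hf : ∀ v, MeasurePreserving (f v) μ μ) :
    (Measure.infinitePi fun _ : V => μ).map (fun u v => f v (u (σ v))) =
      Measure.infinitePi fun _ : V => μ := by
  classical
  have hm : Measurable (fun (u : V → X) v => f v (u (σ v))) := by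
    refine measurable_pi_lambda _ fun v => ?_
    exact (hf v).measurable.comp (measurable_pi_apply _)
  refine Measure.eq_infinitePi _ fun s t ht => ?_
  rw [Measure.map_apply hm (.pi s.countable_toSet fun _ _ => ht _)]
  have : (fun (u : V → X) v => f v (u (σ v))) ⁻¹' ((s : Set V).pi t) =
      ((s.map σ.toEmbedding : Finset V) : Set V).pi
        (fun w => f (σ.symm w) ⁻¹' (t (σ.symm w))) := by
    ext u
    simp only [Set.mem_preimage, Set.mem_pi, Finset.coe_map, Set.mem_image, Finset.mem_coe,
      forall_exists_index, and_imp]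
    constructor
    · rintro h w v hv rfl
      simpa using h v hv
    · intro h v hv
      simpa using h (σ v) v hv rfl
  rw [this, Measure.infinitePi_pi _ (fun i _ => (hf _).measurable (ht _)), Finset.prod_map]
  refine Finset.prod_congr rfl fun v _ => ?_
  simp only [Equiv.coe_toEmbedding, Equiv.symm_apply_apply]
  exact (hf v).measure_preimage (ht v).nullMeasurableSet

theorem measurableSet_pairwise (g : X → ℝ) (hg : Measurable g) (l : List V) :
    MeasurableSet {u : V → X | l.Pairwise (fun a b => g (u a) < g (u b))} := by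
  have : {u : V → X | l.Pairwise (fun a b => g (u a) < g (u b))} =
      ⋂ i : Fin l.length, ⋂ j : Fin l.length, ⋂ _ : i < j,
        {u : V → X | g (u (l.get i)) < g (u (l.get j))} := by
    ext u
    simp only [Set.mem_ofPred_eq, Set.mem_iInter]
    exact List.pairwise_iff_get
  rw [this]
  refine MeasurableSet.iInter fun i => MeasurableSet.iInter fun j => MeasurableSet.iInter fun _ => ?_
  exact measurableSet_lt (hg.comp (measurable_pi_apply _)) (hg.comp (measurable_pi_apply _))

/-- an increasing path through a given list has probability at most `1/n!` -/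
theorem prob_pairwise (μ : Measure X) [IsProbabilityMeasure μ] (g : X → ℝ) (hg : Measurable g)
    (l : List V) (hl : l.Nodup) :
    (l.length.factorial : ENNReal) * (Measure.infinitePi fun _ : V => μ)
      {u : V → X | l.Pairwise (fun a b => g (u a) < g (u b))} ≤ 1 := by
  classical
  set P := Measure.infinitePi fun _ : V => μ with hP
  set n := l.length with hn
  let ι : Fin n ↪ V := ⟨l.get, List.nodup_iff_injective_get.1 hl⟩
  let ext (σ : Equiv.Perm (Fin n)) : Equiv.Perm V := σ.viaFintypeEmbedding ι
  let A : Set (V → X) := {u : V → X | l.Pairwise (fun a b => g (u a) < g (u b))}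
  have hA : MeasurableSet A := measurableSet_pairwise g hg l
  let B (σ : Equiv.Perm (Fin n)) : Set (V → X) := (fun (u : V → X) v => u (ext σ v)) ⁻¹' A
  have hmeas (σ : Equiv.Perm (Fin n)) : Measurable (fun (u : V → X) v => u (ext σ v)) :=
    measurable_pi_lambda _ fun v => measurable_pi_apply _
  have hB (σ : Equiv.Perm (Fin n)) : MeasurableSet (B σ) := hmeas σ hA
  have hPB (σ : Equiv.Perm (Fin n)) : P (B σ) = P A := by
    have := map_twist μ (ext σ) (fun _ x => x) (fun _ => MeasurePreserving.id μ)
    have h2 : (P.map (fun (u : V → X) v => u (ext σ v))) A = P A := by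
      rw [hP, this]
    rw [Measure.map_apply (hmeas σ) hA] at h2
    exact h2
  have hmono (σ : Equiv.Perm (Fin n)) (u : V → X) (hu : u ∈ B σ) :
      StrictMono (fun a : Fin n => g (u (ι (σ a)))) := by
    intro a b hab
    have h1 : l.Pairwise (fun a b => g (u (ext σ a)) < g (u (ext σ b))) := hu
    rw [List.pairwise_iff_get] at h1
    have h2 := h1 a b hab
    have e (a : Fin n) : ext σ (l.get a) = ι (σ a) := Equiv.Perm.viaFintypeEmbedding_apply_image σ ι a
    rw [e, e] at h2
    exact h2
  have hdisj : Pairwise (Function.onFun Disjoint B) := by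
    intro σ τ hne
    refine Set.disjoint_left.2 fun u hu hu' => hne ?_
    have h1 := hmono σ u hu
    have h2 := hmono τ u hu'
    have hr : Set.range (fun a : Fin n => g (u (ι (σ a)))) =
        Set.range (fun a : Fin n => g (u (ι (τ a)))) := by
      have e1 : Set.range (fun a : Fin n => g (u (ι (σ a)))) = Set.range (fun a => g (u (ι a))) :=
        σ.surjective.range_comp (fun a => g (u (ι a)))
      have e2 : Set.range (fun a : Fin n => g (u (ι (τ a)))) = Set.range (fun a => g (u (ι a))) :=
        τ.surjective.range_comp (fun a => g (u (ι a)))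
      rw [e1, e2]
    have h3 := (h1.range_inj h2).1 hr
    have hinj : Function.Injective (fun a : Fin n => g (u (ι a))) := by
      intro a b hab
      have h4 : (fun a : Fin n => g (u (ι (σ a)))) (σ.symm a) =
          (fun a : Fin n => g (u (ι (σ a)))) (σ.symm b) := by simpa using hab
      exact σ.symm.injective (h1.injective h4)
    ext a
    have := hinj (congrFun h3 a)
    rw [this]
  have hsum : ∑ σ : Equiv.Perm (Fin n), P (B σ) ≤ 1 := by
    have : P (⋃ σ, B σ) = ∑' σ, P (B σ) := measure_iUnion hdisj hB
    rw [tsum_fintype] at this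
    rw [← this]
    exact prob_le_one
  simp only [hPB, Finset.sum_const, Finset.card_univ, Fintype.card_perm, Fintype.card_fin,
    nsmul_eq_mul] at hsum
  exact hsum

theorem prob_asc_mul (μ : Measure X) [IsProbabilityMeasure μ] (g : X → ℝ) (hg : Measurable g)
    (N : V → Finset V) (d : ℕ) (hN : ∀ v, (N v).card ≤ d) (L : ℕ) (v : V) :
    ((L + 1).factorial : ENNReal) * (Measure.infinitePi fun _ : V => μ)
      {u : V → X | asc N (fun w => g (u w)) L v} ≤ (d : ENNReal) ^ L := by
  classical
  set P := Measure.infinitePi fun _ : V => μ with hP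
  have hsub : {u : V → X | asc N (fun w => g (u w)) L v} ⊆
      ⋃ l ∈ (paths N L v).filter List.Nodup,
        {u : V → X | l.Pairwise (fun a b => g (u a) < g (u b))} := by
    intro u hu
    obtain ⟨l, hl, hp, _⟩ := asc_path N (fun w => g (u w)) L v hu
    simp only [Set.mem_iUnion]
    refine ⟨l, Finset.mem_filter.2 ⟨hl, ?_⟩, hp⟩
    exact hp.imp (fun h h' => by rw [h'] at h; exact lt_irrefl _ h)
  have h1 : P {u : V → X | asc N (fun w => g (u w)) L v} ≤
      ∑ l ∈ (paths N L v).filter List.Nodup,
        P {u : V → X | l.Pairwise (fun a b => g (u a) < g (u b))} :=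
    (measure_mono hsub).trans (measure_biUnion_finset_le _ _)
  calc _ ≤ ((L + 1).factorial : ENNReal) * ∑ l ∈ (paths N L v).filter List.Nodup,
        P {u : V → X | l.Pairwise (fun a b => g (u a) < g (u b))} := by gcongr
    _ = ∑ l ∈ (paths N L v).filter List.Nodup, ((L + 1).factorial : ENNReal) *
        P {u : V → X | l.Pairwise (fun a b => g (u a) < g (u b))} := Finset.mul_sum _ _ _
    _ ≤ ∑ l ∈ (paths N L v).filter List.Nodup, 1 := by
        refine Finset.sum_le_sum fun l hl => ?_
        rw [Finset.mem_filter] at hl
        rw [← paths_length N L v l hl.1]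
        exact prob_pairwise μ g hg l hl.2
    _ = (((paths N L v).filter List.Nodup).card : ENNReal) := by simp
    _ ≤ ((d ^ L : ℕ) : ENNReal) := by
        exact_mod_cast (Finset.card_filter_le _ _).trans (paths_card N d hN L v)
    _ = (d : ENNReal) ^ L := by push_cast; rfl

/-- almost surely there is no infinite family of increasing paths -/
theorem ae_exists_not_asc (μ : Measure X) [IsProbabilityMeasure μ] (g : X → ℝ) (hg : Measurable g)
    (N : V → Finset V) (d : ℕ) (hN : ∀ v, (N v).card ≤ d) (v : V) :
    ∀ᵐ u ∂(Measure.infinitePi fun _ : V => μ), ∃ L, ¬ asc N (fun w => g (u w)) L v := by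
  set P := Measure.infinitePi fun _ : V => μ with hP
  rw [ae_iff]
  push Not
  have hb (L : ℕ) : P {u : V → X | ∀ L, asc N (fun w => g (u w)) L v} ≤
      ENNReal.ofReal ((d : ℝ) ^ L / (L + 1).factorial) := by
    have h1 := prob_asc_mul μ g hg N d hN L v
    have h2 : P {u : V → X | ∀ L, asc N (fun w => g (u w)) L v} ≤
        P {u : V → X | asc N (fun w => g (u w)) L v} := measure_mono fun u hu => hu L
    refine h2.trans ?_
    have hf : ((L + 1).factorial : ENNReal) ≠ 0 := by
      exact_mod_cast (Nat.factorial_ne_zero _)
    rw [ENNReal.ofReal_div_of_pos (by exact_mod_cast Nat.factorial_pos _),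
      ENNReal.ofReal_pow (by positivity), ENNReal.ofReal_natCast, ENNReal.ofReal_natCast,
      ENNReal.le_div_iff_mul_le (Or.inl hf) (Or.inl (ENNReal.natCast_ne_top _)), mul_comm]
    exact h1
  have ht : Filter.Tendsto (fun L : ℕ => ENNReal.ofReal ((d : ℝ) ^ L / (L + 1).factorial))
      Filter.atTop (nhds 0) := by
    rw [← ENNReal.ofReal_zero]
    refine ENNReal.tendsto_ofReal ?_
    refine squeeze_zero (fun L => by positivity) (fun L => ?_)
      (FloorSemiring.tendsto_pow_div_factorial_atTop (d : ℝ))
    apply div_le_div_of_nonneg_left (by positivity) (by exact_mod_cast Nat.factorial_pos _)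
    exact_mod_cast Nat.factorial_le (Nat.le_succ L)
  exact le_antisymm (ge_of_tendsto' ht hb) zero_le

/-- almost surely labels are different -/
theorem ae_ne (μ : Measure X) [IsProbabilityMeasure μ] (g : X → ℝ) (hg : Measurable g)
    (hna : NullSingletonClass (μ.map g)) (v w : V) (hvw : v ≠ w) :
    ∀ᵐ u ∂(Measure.infinitePi fun _ : V => μ), g (u v) ≠ g (u w) := by
  classical
  set P := Measure.infinitePi fun _ : V => μ with hP
  have hpm : IsProbabilityMeasure (μ.map g) := Measure.isProbabilityMeasure_map hg.aemeasurable
  have hm : Measurable (fun u : V → X => (g (u v), g (u w))) :=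
    (hg.comp (measurable_pi_apply _)).prodMk (hg.comp (measurable_pi_apply _))
  have hprod : (μ.map g).prod (μ.map g) = P.map (fun u => (g (u v), g (u w))) := by
    refine Measure.prod_eq fun s t hs ht => ?_
    rw [Measure.map_apply hm (hs.prod ht), Measure.map_apply hg hs, Measure.map_apply hg ht]
    have : (fun u : V → X => (g (u v), g (u w))) ⁻¹' (s ×ˢ t) =
        (({v, w} : Finset V) : Set V).pi (fun i => if i = v then g ⁻¹' s else g ⁻¹' t) := by
      ext u
      simp [hvw.symm]
    rw [this, Measure.infinitePi_pi]
    · rw [Finset.prod_pair hvw]; simp [hvw.symm]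
    · intro i _
      split_ifs
      · exact hg hs
      · exact hg ht
  rw [ae_iff]
  push Not
  have hd : MeasurableSet {p : ℝ × ℝ | p.1 = p.2} := measurableSet_eq_fun measurable_fst measurable_snd
  have h0 : ((μ.map g).prod (μ.map g)) {p : ℝ × ℝ | p.1 = p.2} = 0 := by
    rw [Measure.measure_prod_null hd]
    refine Filter.Eventually.of_forall fun x => ?_
    have : Prod.mk x ⁻¹' {p : ℝ × ℝ | p.1 = p.2} = {x} := by
      ext y; simp [eq_comm]
    change (μ.map g) (Prod.mk x ⁻¹' {p : ℝ × ℝ | p.1 = p.2}) = 0
    rw [this]
    exact measure_singleton x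
  rw [hprod, Measure.map_apply hm hd] at h0
  exact h0

end Vale.Agent.P184.H428
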